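import Vale.Agent.P301W.Rows

/-!
# P301W: the signature of the lattice
-/

open Vale.Agent.P301Z.Lat Vale.Agent.P301W

noncomputable section

namespace Vale.Agent.P301W38

theorem sig_abs {M : Type} [AddCommGroup M] [Module ℝ M] [FiniteDimensional ℝ M]
    (β : M →ₗ[ℝ] M →ₗ[ℝ] ℝ) (e : Fin 3 → M)
    (he : ∀ i j, β (e i) (e j) = if i = j then 1 else 0)
    (hn : ∀ v, (∀ i, β v (e i) = 0) → v ≠ 0 → β v v < 0) :
    sigPos (LinearMap.BilinMap.toQuadraticMap β) = 3 ∧
      sigNeg (LinearMap.BilinMap.toQuadraticMap β) + 3 = Module.finrank ℝ M := by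
  set Q : QuadraticForm ℝ M := LinearMap.BilinMap.toQuadraticMap β with hQ
  have hQv : ∀ v, Q v = β v v := fun v => rfl
  let E : (Fin 3 → ℝ) →ₗ[ℝ] M := Fintype.linearCombination ℝ e
  let π : M →ₗ[ℝ] (Fin 3 → ℝ) := LinearMap.pi fun i => β.flip (e i)
  have hπ : ∀ v i, π v i = β v (e i) := fun v i => rfl
  have hE : ∀ c, E c = ∑ i, c i • e i := fun c => Fintype.linearCombination_apply ℝ e c
  have hπE : ∀ c, π (E c) = c := by
    intro c
    funext j
    rw [hπ, hE, map_sum, LinearMap.sum_apply]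
    simp [he]
  have hQE : ∀ c, Q (E c) = ∑ i, c i * c i := by
    intro c
    rw [hQv]
    conv_lhs => enter [2]; rw [hE]
    rw [map_sum]
    refine Finset.sum_congr rfl fun i _ => ?_
    rw [map_smul, ← hπ, hπE, smul_eq_mul]
  have hinj : Function.Injective E := Function.LeftInverse.injective hπE
  have hsur : Function.Surjective π := Function.RightInverse.surjective hπE
  have hP : Module.finrank ℝ (LinearMap.range E) = 3 := by
    rw [LinearMap.finrank_range_of_inj hinj]
    simp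
  have hN : 3 + Module.finrank ℝ (LinearMap.ker π) = Module.finrank ℝ M := by
    rw [← LinearMap.finrank_range_add_finrank_ker π, LinearMap.range_eq_top.2 hsur]
    simp
  have p0 : ∀ x ∈ LinearMap.range E, 0 ≤ Q x := by
    rintro _ ⟨c, rfl⟩
    rw [hQE]
    exact Finset.sum_nonneg fun i _ => mul_self_nonneg _
  have p1 : (Q.restrict (LinearMap.range E)).PosDef := by
    rintro ⟨_, c, rfl⟩ hc
    have hc' : c ≠ 0 := by
      rintro rfl
      exact hc (Subtype.ext (map_zero E))
    obtain ⟨i, hi⟩ := Function.ne_iff.1 hc'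
    rw [QuadraticMap.restrict_apply, hQE]
    exact Finset.sum_pos' (fun i _ => mul_self_nonneg _)
      ⟨i, Finset.mem_univ _, mul_self_pos.2 hi⟩
  have n1 : ∀ x ∈ LinearMap.ker π, x ≠ 0 → Q x < 0 := fun x hx h0 =>
    hn x (fun i => by rw [← hπ, LinearMap.mem_ker.1 hx]; rfl) h0
  have n0 : ∀ x ∈ LinearMap.ker π, Q x ≤ 0 := by
    intro x hx
    by_cases h0 : x = 0
    · rw [h0, map_zero]
    · exact (n1 x hx h0).le
  have n2 : ((-Q).restrict (LinearMap.ker π)).PosDef := by
    rintro ⟨x, hx⟩ h0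
    have := n1 x hx fun h => h0 (Subtype.ext h)
    rw [QuadraticMap.restrict_apply, neg_apply]
    linarith
  have a1 := le_sigPos_of_posDef Q p1
  have a2 := QuadraticForm.sigPos_add_finrank_le_of_nonpos n0
  have a3 := le_sigNeg_of_negDef Q n2
  have a4 := QuadraticForm.sigPos_add_finrank_le_of_nonpos (Q := -Q) (V := LinearMap.range E)
    fun x hx => by rw [neg_apply]; linarith [p0 x hx]
  rw [sigPos_neg] at a4
  omega

theorem sign : SIGN := by
  intro n r B
  obtain ⟨e, he, hn⟩ := B.sig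
  let β : (Fin r → ℝ) →ₗ[ℝ] (Fin r → ℝ) →ₗ[ℝ] ℝ :=
    LinearMap.mk₂ ℝ (qR B.q) (qR_add_l B.q) (qR_smul_l B.q) (qR_add_r B.q) (qR_smul_r B.q)
  have h := sig_abs β e he hn
  refine ⟨LinearMap.BilinMap.toQuadraticMap β, fun v => rfl, h.1, ?_⟩
  simpa using h.2

end Vale.Agent.P301W38
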